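import Vale.Agent.P144.U.AL.Full

namespace Vale.Agent.Results.P144.Full

open Vale.Agent.P144

/-- Q1 is false: the knight-move potential admits no data for any `λ > 0`, not even if in the
domain part the constants may depend on the domain and the boundary condition. The domain used is
the square `Dia` with the alternating boundary condition, for which all limits at `λ = 0` exist. -/
theorem result :
    (∀ J > 0, ∃ V, IsPotential V ∧ ∀ lam > 0, ¬ HasData J V lam ∧ ¬ HasDataD J V lam) ∧ ¬ Q1 ∧
    ∀ J > 0, AllLim Dia (crit J Dia (some altb)) ∧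
      ∀ z ∈ Dia, Lim (crit J Dia (some altb)) ⟨1, 0, ![z], ![], ![]⟩ 0 :=
  ⟨fun _ hJ => ⟨Vk, Vk_potential, fun _ hl => ⟨noData hJ (AL.allLim hJ) hl,
    noDataD hJ (AL.allLim hJ) hl⟩⟩, not_Q1 one_pos (AL.allLim one_pos),
    fun _ hJ => ⟨AL.allLim hJ, fun _ hz => crit_zero hJ hz⟩⟩

end Vale.Agent.Results.P144.Full
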