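import Vale.Agent.P144.H436.JFin

namespace Vale.Agent.Results.P144.FullJ

open Vale.Agent.P144

/-- Q1 is false: the knight-move potential admits no data for any `λ > 0`, not even if only those
boundary conditions are considered for which the limits at `λ = 0` exist and do not depend on the
directions of the energies, and if the constants may depend on the domain and the boundary
condition. The domain used is the square `Dia` with the alternating boundary condition, for which
all limits at `λ = 0` exist and do not depend on the directions. -/
theorem result :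
    (∀ J > 0, ∃ V, IsPotential V ∧ ∀ lam > 0, ¬ HasDataJ J V lam) ∧ ¬ Q1J ∧ ¬ Q1 ∧
    ∀ J > 0, AllLimJ Dia (crit J Dia (some altb)) ∧
      ∀ z ∈ Dia, Lim (crit J Dia (some altb)) ⟨1, 0, ![z], ![], ![]⟩ 0 :=
  ⟨fun _ hJ => ⟨Vk, Vk_potential, fun _ hl => H436.noDataJ hJ hl⟩, H436.not_Q1J,
    fun h => H436.not_Q1J (H436.q1J_of h),
    fun _ hJ => ⟨H436.allLimJ hJ, fun _ hz => crit_zero hJ hz⟩⟩

end Vale.Agent.Results.P144.FullJ
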