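import Vale.Agent.P144.U.Final

namespace Vale.Agent.Results.P144.Unconditional

open Vale.Agent.P144

/-- The knight-move potential admits no data for any `λ > 0`, if the identity in a domain is asked
for every number of points for which the limits at `λ = 0` exist; this part is unconditional. If
all limits at `λ = 0` exist for the alternating boundary condition of the square, it admits no data
either in the reading in which the identity is only asked where all limits exist. -/
theorem result :
    (∀ J > 0, ∃ V, IsPotential V ∧ ∀ lam > 0, ¬ HasDataNM J V lam) ∧ ¬ Q1nm ∧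
    (∀ J > 0, ∀ z ∈ Dia, Lim (crit J Dia (some altb)) ⟨1, 0, ![z], ![], ![]⟩ 0) ∧
    ∀ J > 0, AllLim Dia (crit J Dia (some altb)) →
      (∃ V, IsPotential V ∧ ∀ lam > 0, ¬ HasData J V lam) ∧ ¬ Q1 :=
  ⟨fun _ hJ => ⟨Vk, Vk_potential, fun _ hl => noDataNM hJ hl⟩, not_Q1nm,
    fun _ hJ _ hz => crit_zero hJ hz,
    fun _ hJ hall => ⟨⟨Vk, Vk_potential, fun _ hl => noData hJ hall hl⟩, not_Q1 hJ hall⟩⟩

end Vale.Agent.Results.P144.Unconditional
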